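import Vale.Agent.P317.Quad

/-! Weighted ordered bases, the hyperbolicity of their two-slot kernels, and the flow lemma. -/

namespace Vale.Agent.P317

open Finset

variable {Y : Type}

/-- The multiset of values of a tuple. -/
def ms {m : ℕ} (σ : Fin m → Y) : Multiset Y := univ.val.map σ

theorem ms_cons {m : ℕ} (a : Y) (σ : Fin m → Y) :
    ms (Fin.cons a σ : Fin (m + 1) → Y) = a ::ₘ ms σ := by
  unfold ms
  rw [Fin.univ_succ]
  simp

theorem ms_card {m : ℕ} (σ : Fin m → Y) : (ms σ).card = m := by simp [ms]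

theorem ms_eq_cons {m : ℕ} (σ : Fin m → Y) (k : Fin m) :
    ms σ = σ k ::ₘ (univ.erase k).val.map σ := by
  unfold ms
  conv_lhs => rw [← insert_erase (mem_univ k), insert_val_of_notMem (notMem_erase k _)]
  rw [Multiset.map_cons]

theorem ms_update {m : ℕ} (σ : Fin m → Y) (k : Fin m) (y : Y) :
    ms (Function.update σ k y) = y ::ₘ (univ.erase k).val.map σ := by
  rw [ms_eq_cons _ k, Function.update_self]
  congr 1
  refine Multiset.map_congr rfl fun l hl => ?_
  have : l ≠ k := (mem_erase.1 (show l ∈ univ.erase k from hl)).1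
  rw [Function.update_of_ne this]

theorem cons_ms_update {m : ℕ} (σ : Fin m → Y) (k : Fin m) (y : Y) :
    σ k ::ₘ ms (Function.update σ k y) = y ::ₘ ms σ := by
  rw [ms_update, ms_eq_cons σ k, Multiset.cons_swap]

/-- The link of a weight function at an element. -/
def link (e : Y) (G : Multiset Y → ℝ) : Multiset Y → ℝ := fun s => G (e ::ₘ s)

theorem link_comm (a b : Y) (G : Multiset Y → ℝ) : link a (link b G) = link b (link a G) := by
  funext s; simp only [link]; rw [Multiset.cons_swap]

/-- The weight of a tuple. -/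
def wt {m : ℕ} (C : Fin m → Y → ℝ) (G : Multiset Y → ℝ) (σ : Fin m → Y) : ℝ :=
  (∏ k, C k (σ k)) * G (ms σ)

theorem wt_cons {m : ℕ} (C : Fin (m + 1) → Y → ℝ) (G : Multiset Y → ℝ) (e : Y) (σ : Fin m → Y) :
    wt C G (Fin.cons e σ) = C 0 e * wt (Fin.tail C) (link e G) σ := by
  simp only [wt, Fin.prod_univ_succ, Fin.cons_zero, Fin.cons_succ, ms_cons, link, Fin.tail]
  ring

theorem wt_nonneg {m : ℕ} {C : Fin m → Y → ℝ} {G : Multiset Y → ℝ} (hC : ∀ k y, 0 ≤ C k y)
    (hG : ∀ s, 0 ≤ G s) (σ : Fin m → Y) : 0 ≤ wt C G σ :=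
  mul_nonneg (prod_nonneg fun k _ => hC k _) (hG _)

/-- A multiset that extends to one of nonzero weight. -/
def Ind (G : Multiset Y → ℝ) (s : Multiset Y) : Prop := ∃ t, G (s + t) ≠ 0

/-- Indicator functions of the bases of a matroid-like system of rank `d`. -/
structure Good (G : Multiset Y → ℝ) (d : ℕ) : Prop where
  zo : ∀ s, G s = 0 ∨ G s = 1
  card : ∀ s, G s ≠ 0 → s.card = d
  aug : ∀ τ y y' z, Ind G (y ::ₘ z ::ₘ τ) → Ind G (y' ::ₘ τ) →
    Ind G (y ::ₘ y' ::ₘ τ) ∨ Ind G (y' ::ₘ z ::ₘ τ)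

theorem Good.nonneg {G : Multiset Y → ℝ} {d : ℕ} (h : Good G d) (s : Multiset Y) : 0 ≤ G s := by
  rcases h.zo s with h | h <;> simp [h]

theorem ind_link (e : Y) (G : Multiset Y → ℝ) (s : Multiset Y) :
    Ind (link e G) s ↔ Ind G (e ::ₘ s) := by
  simp only [Ind, link, Multiset.cons_add]

theorem Good.link {G : Multiset Y → ℝ} {d : ℕ} (h : Good G (d + 1)) (e : Y) :
    Good (link e G) d where
  zo := fun s => h.zo _
  card := fun s hs => by
    have := h.card _ hs
    simpa using this
  aug := fun τ y y' z h1 h2 => by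
    simp only [ind_link] at h1 h2 ⊢
    have := h.aug (e ::ₘ τ) y y' z
      (by rw [Multiset.cons_swap z e, Multiset.cons_swap y e]; exact h1)
      (by rw [Multiset.cons_swap y' e]; exact h2)
    rw [Multiset.cons_swap y' e, Multiset.cons_swap y e, Multiset.cons_swap z e,
      Multiset.cons_swap y' e] at this
    exact this

variable [Fintype Y]

/-- The partition function. -/
def Z {m : ℕ} (C : Fin m → Y → ℝ) (G : Multiset Y → ℝ) : ℝ := ∑ σ : Fin m → Y, wt C G σ

theorem sum_tuple {m : ℕ} (F : (Fin (m + 1) → Y) → ℝ) :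
    ∑ σ, F σ = ∑ e, ∑ σ : Fin m → Y, F (Fin.cons e σ) := by
  rw [← (Fin.consEquiv (fun _ : Fin (m + 1) => Y)).sum_comp, Fintype.sum_prod_type]
  rfl

theorem Z_succ {m : ℕ} (C : Fin (m + 1) → Y → ℝ) (G : Multiset Y → ℝ) :
    Z C G = ∑ e, C 0 e * Z (Fin.tail C) (link e G) := by
  simp only [Z, mul_sum]
  rw [sum_tuple]
  simp only [wt_cons]

theorem Z_zero (C : Fin 0 → Y → ℝ) (G : Multiset Y → ℝ) : Z C G = G 0 := by
  simp [Z, wt, ms]

theorem Z_nonneg {m : ℕ} {C : Fin m → Y → ℝ} {G : Multiset Y → ℝ} (hC : ∀ k y, 0 ≤ C k y)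
    (hG : ∀ s, 0 ≤ G s) : 0 ≤ Z C G := sum_nonneg fun σ _ => wt_nonneg hC hG σ

theorem Z_ne_zero_iff : ∀ {m : ℕ} {G : Multiset Y → ℝ}, Good G m → ∀ {C : Fin m → Y → ℝ},
    (∀ k y, 0 < C k y) → (Z C G ≠ 0 ↔ ∃ t, G t ≠ 0)
  | 0, G, hG, C, _ => by
    rw [Z_zero]
    refine ⟨fun h => ⟨0, h⟩, fun ⟨t, ht⟩ => ?_⟩
    have := hG.card t ht
    rw [Multiset.card_eq_zero] at this
    rwa [← this]
  | m + 1, G, hG, C, hC => by
    rw [Z_succ, Ne, sum_eq_zero_iff_of_nonneg fun e _ => mul_nonneg (hC 0 e).le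
      (Z_nonneg (C := Fin.tail C) (fun k y => (hC k.succ y).le) (hG.link e).nonneg)]
    push Not
    constructor
    · rintro ⟨e, -, he⟩
      obtain ⟨t, ht⟩ := (Z_ne_zero_iff (hG.link e) (fun k y => hC k.succ y)).1
        (mul_ne_zero_iff.1 he).2
      exact ⟨_, ht⟩
    · rintro ⟨t, ht⟩
      have hc := hG.card t ht
      obtain ⟨e, he⟩ := Multiset.card_pos_iff_exists_mem.1 (by omega : 0 < t.card)
      obtain ⟨t', rfl⟩ := Multiset.exists_cons_of_mem he
      exact ⟨e, mem_univ e, mul_ne_zero (hC 0 e).ne'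
        ((Z_ne_zero_iff (hG.link e) (fun k y => hC k.succ y)).2 ⟨t', ht⟩)⟩

theorem ker_ne_zero_iff {m : ℕ} {G : Multiset Y → ℝ} (hG : Good G (m + 2)) {C : Fin m → Y → ℝ}
    (hC : ∀ k y, 0 < C k y) (a b : Y) :
    Z C (link a (link b G)) ≠ 0 ↔ Ind G (a ::ₘ b ::ₘ 0) := by
  rw [Z_ne_zero_iff ((hG.link b).link a) hC]
  simp only [Ind, link, Multiset.cons_add, zero_add]
  constructor <;> rintro ⟨t, ht⟩ <;> exact ⟨t, by rwa [Multiset.cons_swap]⟩

theorem ker_aug {m : ℕ} {G : Multiset Y → ℝ} (hG : Good G (m + 2)) {C : Fin m → Y → ℝ}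
    (hC : ∀ k y, 0 < C k y) (a b c : Y) (h1 : Z C (link a (link c G)) ≠ 0)
    (h2 : ∃ z, Z C (link b (link z G)) ≠ 0) :
    Z C (link a (link b G)) ≠ 0 ∨ Z C (link b (link c G)) ≠ 0 := by
  simp only [ker_ne_zero_iff hG hC] at h1 h2 ⊢
  obtain ⟨z, t, ht⟩ := h2
  exact hG.aug 0 a b c h1 ⟨z ::ₘ t, by simpa [Multiset.cons_swap z b] using ht⟩

theorem ker_conn {m : ℕ} {G : Multiset Y → ℝ} (hG : Good G (m + 2)) {C : Fin m → Y → ℝ}
    (hC : ∀ k y, 0 < C k y) : Conn fun a b => Z C (link a (link b G)) := by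
  rintro a b ⟨c, hc⟩ hb
  rcases ker_aug hG hC a b c hc hb with h | h
  · exact Or.inl h
  · exact Or.inr ⟨c, hc, by rw [link_comm] at h; exact h⟩

theorem ker_hyp : ∀ {m : ℕ} {G : Multiset Y → ℝ}, Good G (m + 2) → ∀ {C : Fin m → Y → ℝ},
    (∀ k y, 0 < C k y) → Hyp fun a b => Z C (link a (link b G))
  | 0, G, hG, C, hC => by
    refine hyp_base (fun a b => by rw [link_comm]) (fun a b => ?_) (ker_aug hG hC)
    rw [Z_zero]
    exact hG.zo _
  | m + 1, G, hG, C, hC => by
    have e : (fun a b => Z C (link a (link b G))) =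
        fun a b => ∑ e, C 0 e * Z (Fin.tail C) (link a (link b (link e G))) := by
      funext a b
      rw [Z_succ]
      refine sum_congr rfl fun e _ => ?_
      rw [link_comm e a, link_comm e b]
    have hc := ker_conn hG hC
    rw [e] at hc ⊢
    exact hyp_step (w := fun e a b => Z (Fin.tail C) (link a (link b (link e G))))
      (fun e a b => by rw [link_comm a b])
      (fun e a b => by rw [link_comm b e, link_comm a e, link_comm a b])
      (fun e a b => Z_nonneg (fun k y => (hC k.succ y).le) (((hG.link e).link b).link a).nonneg)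
      (fun e => ker_hyp (hG.link e) fun k y => hC k.succ y) (hC 0) hc

/-- The sum over `k` of the partition functions with slot `k` removed. -/
def Bk : {m : ℕ} → (Fin m → Y → ℝ) → (Multiset Y → ℝ) → ℝ
  | 0, _, _ => 0
  | _ + 1, C, G => Z (Fin.tail C) G + ∑ e, C 0 e * Bk (Fin.tail C) (link e G)

theorem Bk_nonneg : ∀ {m : ℕ} {C : Fin m → Y → ℝ} {G : Multiset Y → ℝ}, (∀ k y, 0 ≤ C k y) →
    (∀ s, 0 ≤ G s) → 0 ≤ Bk C G
  | 0, _, _, _, _ => le_rfl
  | _ + 1, _, _, hC, hG => add_nonneg (Z_nonneg (fun k y => hC k.succ y) hG)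
      (sum_nonneg fun e _ => mul_nonneg (hC 0 e)
        (Bk_nonneg (fun k y => hC k.succ y) fun _ => hG _))

theorem Bk_le {K : ℝ} {c : Y → ℝ} (hc : ∀ y, 0 ≤ c y) : ∀ {m : ℕ} {C : Fin m → Y → ℝ}
    {G : Multiset Y → ℝ}, (∀ k y, 0 ≤ C k y) → (∀ s, 0 ≤ G s) → (∀ k y, c y ≤ K * C k y) →
    ∑ y, c y * Bk C (link y G) ≤ m * K * Z C G
  | 0, _, _, _, _, _ => by simp [Bk]
  | m + 1, C, G, hC, hG, hK => by
    simp only [Bk, mul_add, sum_add_distrib]
    have h1 : ∑ y, c y * Z (Fin.tail C) (link y G) ≤ K * Z C G := by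
      rw [Z_succ, mul_sum]
      refine sum_le_sum fun y _ => ?_
      rw [← mul_assoc]
      exact mul_le_mul_of_nonneg_right (hK 0 y)
        (Z_nonneg (fun k y => hC k.succ y) fun _ => hG _)
    have h2 : ∑ y, c y * ∑ e, C 0 e * Bk (Fin.tail C) (link e (link y G)) ≤ m * K * Z C G := by
      simp only [mul_sum]
      rw [sum_comm, Z_succ, mul_sum]
      refine sum_le_sum fun e _ => ?_
      have := Bk_le hc (C := Fin.tail C) (G := link e G) (fun k y => hC k.succ y)
        (fun _ => hG _) (fun k y => hK k.succ y)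
      have h3 : ∑ y, c y * (C 0 e * Bk (Fin.tail C) (link e (link y G))) =
          C 0 e * ∑ y, c y * Bk (Fin.tail C) (link y (link e G)) := by
        rw [mul_sum]
        exact sum_congr rfl fun y _ => by rw [link_comm]; ring
      rw [h3]
      have := mul_le_mul_of_nonneg_left this (hC 0 e)
      linarith
    push_cast
    linarith

/-- The Dirichlet form of the swap moves between a slot and the probe. -/
noncomputable def Dir {m : ℕ} (C : Fin m → Y → ℝ) (G : Multiset Y → ℝ)
    (f : (Fin m → Y) → ℝ) : ℝ :=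
  (1 / 2) * ∑ k, ∑ R, ∑ e', C k e' * wt C (link e' G) R * (f R - f (Function.update R k e')) ^ 2

theorem Dir_succ {m : ℕ} (C : Fin (m + 1) → Y → ℝ) (G : Multiset Y → ℝ)
    (f : (Fin (m + 1) → Y) → ℝ) :
    Dir C G f = (1 / 2) * ∑ e, ∑ e', C 0 e * C 0 e' *
        ∑ R, wt (Fin.tail C) (link e (link e' G)) R * (f (Fin.cons e R) - f (Fin.cons e' R)) ^ 2
      + ∑ e, C 0 e * Dir (Fin.tail C) (link e G) fun R => f (Fin.cons e R) := by
  unfold Dir
  rw [Fin.sum_univ_succ, mul_add]
  congr 1
  · congr 1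
    rw [sum_tuple]
    refine sum_congr rfl fun e _ => ?_
    rw [sum_comm]
    refine sum_congr rfl fun e' _ => ?_
    rw [mul_sum]
    refine sum_congr rfl fun R _ => ?_
    rw [wt_cons, Fin.update_cons_zero]; ring
  · simp only [mul_sum]
    rw [sum_comm]
    rw [sum_tuple]
    refine sum_congr rfl fun e _ => ?_
    rw [sum_comm]
    refine sum_congr rfl fun k _ => sum_congr rfl fun R _ => sum_congr rfl fun e' _ => ?_
    rw [wt_cons, ← Fin.cons_update, link_comm]
    simp only [Fin.tail]
    ring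

/-- The flow lemma. -/
theorem flow : ∀ {m : ℕ} {G : Multiset Y → ℝ}, Good G (m + 1) → ∀ {C : Fin m → Y → ℝ},
    (∀ k y, 0 < C k y) → ∀ x : Y → ℝ, ∑ y, x y * Z C (link y G) = 0 →
    ∀ f : (Fin m → Y) → ℝ, 2 * ∑ y, x y * ∑ R, wt C (link y G) R * f R ≤
      -bil (fun a b => Bk C (link a (link b G))) x x + Dir C G f
  | 0, G, hG, C, hC, x, hx, f => by
    have h1 : ∑ y, x y * ∑ R, wt C (link y G) R * f R =
        (∑ y, x y * Z C (link y G)) * f default := by
      rw [sum_mul]
      refine sum_congr rfl fun y _ => ?_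
      simp only [Z, Finset.univ_unique, sum_singleton]
      ring
    rw [h1, hx]
    simp [bil, Bk, Dir]
  | m + 1, G, hG, C, hC, x, hx, f => by
    set v := C 0 with hv
    have hvp : ∀ a, 0 < v a := hC 0
    set C' := Fin.tail C with hC'
    have hC'p : ∀ k y, 0 < C' k y := fun k y => hC k.succ y
    set q : Y → Y → ℝ := fun a b => Z C' (link a (link b G)) with hqdef
    have hs : ∀ a b, q a b = q b a := fun a b => by simp only [hqdef]; rw [link_comm]
    have hq : ∀ a b, 0 ≤ q a b := fun a b =>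
      Z_nonneg (fun k y => (hC'p k y).le) ((hG.link b).link a).nonneg
    have hxv : bil q x v = 0 := by
      rw [← hx, bil]
      refine sum_congr rfl fun y _ => ?_
      rw [Z_succ, mul_sum]
      refine sum_congr rfl fun e _ => ?_
      rw [hs]; simp only [hqdef]; ring
    obtain ⟨c, hc, hc0⟩ := solve hs hq (ker_conn hG hC'p) hvp (fun e => ∑ a, x a * q a e)
      (by rw [← hxv, bil_eq_right])
      (fun e he => sum_eq_zero fun a _ => by rw [row_zero hq hvp he a, mul_zero])
    set d : Y → ℝ := fun e => ∑ a, v a * q a e with hd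
    set z : Y → ℝ := fun a => c a * v a with hz
    -- the new probes
    set u : Y → Y → ℝ := fun e a => x a + z a - c e * v a with hu
    have hmass : ∀ e, ∑ y, u e y * Z C' (link y (link e G)) = 0 := by
      intro e
      have := hc e
      have h2 : ∑ y, u e y * Z C' (link y (link e G)) =
          ∑ a, x a * q a e + ∑ a, c a * v a * q a e - c e * ∑ a, v a * q a e := by
        rw [mul_sum, ← sum_add_distrib, ← sum_sub_distrib]
        exact sum_congr rfl fun a _ => by simp only [hu, hz, hqdef]; ring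
      rw [h2]; linarith
    have ih := fun e => flow (hG.link e) hC'p (u e) (hmass e) fun R => f (Fin.cons e R)
    set F : Y → Y → ℝ := fun y e => ∑ R, wt C' (link y (link e G)) R * f (Fin.cons e R) with hF
    have lhs : ∑ y, x y * ∑ R, wt C (link y G) R * f R =
        ∑ e, v e * ∑ y, u e y * F y e + ∑ e, ∑ y, v e * v y * (c e - c y) * F y e := by
      rw [← sum_add_distrib]
      have : ∀ y, ∑ R, wt C (link y G) R * f R = ∑ e, v e * F y e := by
        intro y
        rw [sum_tuple]
        refine sum_congr rfl fun e _ => ?_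
        simp only [hF, mul_sum]
        exact sum_congr rfl fun R _ => by rw [wt_cons, link_comm]; ring
      simp only [this, mul_sum]
      rw [sum_comm]
      refine sum_congr rfl fun e _ => ?_
      rw [← sum_add_distrib]
      exact sum_congr rfl fun y _ => by simp only [hu, hz]; ring
    -- the swap term
    have swap : 2 * ∑ e, ∑ y, v e * v y * (c e - c y) * F y e ≤
        (1 / 2) * ∑ a, ∑ b, v a * v b * q a b * (c a - c b) ^ 2 +
        (1 / 2) * ∑ e, ∑ e', v e * v e' * ∑ R, wt C' (link e (link e' G)) R *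
          (f (Fin.cons e R) - f (Fin.cons e' R)) ^ 2 := by
      have h1 : ∑ e, ∑ y, v e * v y * (c e - c y) * F y e =
          ∑ e, ∑ y, v e * v y * (c y - c e) * F e y := by
        rw [sum_comm]
        exact sum_congr rfl fun e _ => sum_congr rfl fun y _ => by ring
      rw [two_mul]
      conv_lhs => rw [h1]; congr; rfl; rw [← h1]
      simp only [mul_sum, ← sum_add_distrib]
      refine sum_le_sum fun e _ => sum_le_sum fun y _ => ?_
      simp only [hF, hqdef, Z, mul_sum, sum_mul, ← sum_add_distrib]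
      refine sum_le_sum fun R _ => ?_
      rw [link_comm y e]
      have hw : 0 ≤ v e * v y * wt C' (link e (link y G)) R :=
        mul_nonneg (mul_nonneg (hvp e).le (hvp y).le)
          (wt_nonneg (fun k y => (hC'p k y).le) ((hG.link y).link e).nonneg R)
      nlinarith [mul_nonneg hw (sq_nonneg ((c e - c y) - (f (Fin.cons e R) - f (Fin.cons y R))))]
    have hdiag : ∑ e, v e * c e ^ 2 * d e = bil q x z + bil q z z := by
      rw [bil_eq_right, bil_eq_right, ← sum_add_distrib]
      refine sum_congr rfl fun e _ => ?_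
      have := hc e
      simp only [hz, hd] at this ⊢
      rw [← this]; ring
    have hcost : (1 / 2) * ∑ a, ∑ b, v a * v b * q a b * (c a - c b) ^ 2 ≤ -bil q x x := by
      rw [energy_eq hs v c]
      have h1 := ker_hyp hG hC'p v hvp (fun a => 1 * x a + 1 * z a) (by
        rw [bil_lin_left, hxv, bil_comm hs z v, bil_eq_right]
        simp only [hz]
        rw [hc0]; ring)
      rw [bil_sq hs] at h1
      have h2 : 0 ≤ ∑ e, v e * c e ^ 2 * d e := sum_nonneg fun e _ =>
        mul_nonneg (mul_nonneg (hvp e).le (sq_nonneg _))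
          (sum_nonneg fun a _ => mul_nonneg (hvp a).le (hq a e))
      simp only [hd] at hdiag h2
      rw [hdiag] at h2 ⊢
      linarith
    -- the remaining quadratic terms do not increase
    set w : Y → Y → Y → ℝ := fun e a b => Bk C' (link a (link b (link e G))) with hwdef
    set q' : Y → Y → ℝ := fun a b => ∑ e, v e * w e a b with hq'
    have hw1 : ∀ e a b, w e a b = w e b a := fun e a b => by simp only [hwdef]; rw [link_comm a b]
    have hw2 : ∀ e a b, w e a b = w b a e := fun e a b => by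
      simp only [hwdef]; rw [link_comm b e]
    have hw0 : ∀ e a b, 0 ≤ w e a b := fun e a b =>
      Bk_nonneg (fun k y => (hC'p k y).le) fun _ => hG.nonneg _
    have hs' : ∀ a b, q' a b = q' b a := fun a b => sum_congr rfl fun e _ => by rw [hw1]
    have hq'0 : ∀ a b, 0 ≤ q' a b := fun a b =>
      sum_nonneg fun e _ => mul_nonneg (hvp e).le (hw0 e a b)
    have hlink : ∀ (p : Y → ℝ) e, bil (w e) p v = ∑ a, p a * q' a e := by
      intro p e
      unfold bil
      refine sum_congr rfl fun a _ => ?_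
      simp only [hq', mul_sum]
      exact sum_congr rfl fun b _ => by rw [hw2 e a b]; ring
    have hsplit : ∀ p : Y → ℝ, ∑ e, v e * bil (w e) p p = bil q' p p := by
      intro p
      simp only [bil, hq', mul_sum]
      rw [sum_comm]
      refine sum_congr rfl fun a _ => ?_
      rw [sum_comm]
      exact sum_congr rfl fun b _ => sum_congr rfl fun e _ => by ring
    have hrest : bil q' x x ≤ ∑ e, v e * bil (w e) (u e) (u e) := by
      set p : Y → ℝ := fun a => 1 * x a + 1 * z a with hp
      have h1 : ∀ e, v e * bil (w e) (u e) (u e) = v e * bil (w e) p p -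
          2 * (z e * ∑ a, p a * q' a e) + v e * c e ^ 2 * ∑ a, v a * q' a e := by
        intro e
        have : u e = fun a => 1 * p a + (-c e) * v a := by
          funext a; simp only [hu, hp]; ring
        rw [this, bil_sq (hw1 e), hlink, hlink]
        simp only [hz]; ring
      simp only [h1, sum_add_distrib, sum_sub_distrib, ← mul_sum]
      rw [hsplit, ← bil_eq_right, hp, bil_sq hs', bil_lin_left]
      have := (abs_le.1 (bil_le_diag hs' hq'0 (fun a => (hvp a).le) c)).2
      linarith
    have hB : bil (fun a b => Bk C (link a (link b G))) x x = bil q x x + bil q' x x := by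
      simp only [bil, ← sum_add_distrib]
      refine sum_congr rfl fun a _ => sum_congr rfl fun b _ => ?_
      simp only [Bk, hqdef, hq', hwdef]
      have : ∀ e, link e (link a (link b G)) = link a (link b (link e G)) := fun e => by
        rw [link_comm e a, link_comm e b]
      simp only [this]
      ring
    have hih : 2 * ∑ e, v e * ∑ y, u e y * F y e ≤ -∑ e, v e * bil (w e) (u e) (u e) +
        ∑ e, v e * Dir C' (link e G) fun R => f (Fin.cons e R) := by
      rw [mul_sum, ← sum_neg_distrib, ← sum_add_distrib]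
      refine sum_le_sum fun e _ => ?_
      have := mul_le_mul_of_nonneg_left (ih e) (hvp e).le
      simp only [hF, hwdef] at this ⊢
      linarith
    rw [lhs, hB, Dir_succ]
    linarith

end Vale.Agent.P317
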