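import Mathlib

/-! Quadratic forms with nonnegative symmetric kernels and at most one positive direction. -/

namespace Vale.Agent.P317

open Finset

variable {Y : Type} [Fintype Y]

/-- The bilinear form of a kernel. -/
def bil (q : Y → Y → ℝ) (x y : Y → ℝ) : ℝ := ∑ a, ∑ b, x a * y b * q a b

/-- The form is nonpositive on the orthogonal complement of every positive vector. -/
def Hyp (q : Y → Y → ℝ) : Prop :=
  ∀ v : Y → ℝ, (∀ a, 0 < v a) → ∀ x : Y → ℝ, bil q x v = 0 → bil q x x ≤ 0

/-- Any two nonzero rows are joined by a path of length at most two. -/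
def Conn (q : Y → Y → ℝ) : Prop :=
  ∀ a b, (∃ c, q a c ≠ 0) → (∃ c, q b c ≠ 0) → q a b ≠ 0 ∨ ∃ z, q a z ≠ 0 ∧ q z b ≠ 0

theorem bil_comm {q : Y → Y → ℝ} (hs : ∀ a b, q a b = q b a) (x y : Y → ℝ) :
    bil q x y = bil q y x := by
  unfold bil
  rw [sum_comm]
  refine sum_congr rfl fun a _ => sum_congr rfl fun b _ => ?_
  rw [hs b a]; ring

theorem bil_lin_left (q : Y → Y → ℝ) (s t : ℝ) (x x' y : Y → ℝ) :
    bil q (fun a => s * x a + t * x' a) y = s * bil q x y + t * bil q x' y := by
  unfold bil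
  simp only [mul_sum, ← sum_add_distrib]
  refine sum_congr rfl fun a _ => sum_congr rfl fun b _ => by ring

theorem bil_lin_right (q : Y → Y → ℝ) (s t : ℝ) (x y y' : Y → ℝ) :
    bil q x (fun a => s * y a + t * y' a) = s * bil q x y + t * bil q x y' := by
  unfold bil
  simp only [mul_sum, ← sum_add_distrib]
  refine sum_congr rfl fun a _ => sum_congr rfl fun b _ => by ring

theorem bil_sq {q : Y → Y → ℝ} (hs : ∀ a b, q a b = q b a) (s t : ℝ) (x y : Y → ℝ) :
    bil q (fun a => s * x a + t * y a) (fun a => s * x a + t * y a) =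
      s ^ 2 * bil q x x + 2 * s * t * bil q x y + t ^ 2 * bil q y y := by
  rw [bil_lin_left, bil_lin_right, bil_lin_right, bil_comm hs y x]; ring

theorem bil_eq_right (q : Y → Y → ℝ) (x y : Y → ℝ) :
    bil q x y = ∑ b, y b * ∑ a, x a * q a b := by
  unfold bil
  rw [sum_comm]
  refine sum_congr rfl fun b _ => ?_
  rw [mul_sum]
  exact sum_congr rfl fun a _ => by ring

theorem bil_nonneg {q : Y → Y → ℝ} (hq : ∀ a b, 0 ≤ q a b) {x y : Y → ℝ} (hx : ∀ a, 0 ≤ x a)
    (hy : ∀ a, 0 ≤ y a) : 0 ≤ bil q x y :=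
  sum_nonneg fun a _ => sum_nonneg fun b _ => mul_nonneg (mul_nonneg (hx a) (hy b)) (hq a b)

/-- Contraction inequality. -/
theorem bil_le_diag {q : Y → Y → ℝ} (hs : ∀ a b, q a b = q b a) (hq : ∀ a b, 0 ≤ q a b)
    {v : Y → ℝ} (hv : ∀ a, 0 ≤ v a) (c : Y → ℝ) :
    |bil q (fun a => c a * v a) (fun a => c a * v a)| ≤
      ∑ e, v e * c e ^ 2 * ∑ a, v a * q a e := by
  have h1 : ∑ e, v e * c e ^ 2 * ∑ a, v a * q a e = ∑ a, ∑ b, v a * v b * q a b * c b ^ 2 := by
    rw [sum_comm]
    refine sum_congr rfl fun e _ => ?_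
    rw [mul_sum]
    exact sum_congr rfl fun a _ => by ring
  have h2 : ∑ a, ∑ b, v a * v b * q a b * c b ^ 2 = ∑ a, ∑ b, v a * v b * q a b * c a ^ 2 := by
    rw [sum_comm]
    refine sum_congr rfl fun a _ => sum_congr rfl fun b _ => ?_
    rw [hs b a]; ring
  have h3 : ∑ e, v e * c e ^ 2 * ∑ a, v a * q a e =
      ∑ a, ∑ b, v a * v b * q a b * ((c a ^ 2 + c b ^ 2) / 2) := by
    have : ∑ a, ∑ b, v a * v b * q a b * ((c a ^ 2 + c b ^ 2) / 2) =
        (∑ a, ∑ b, v a * v b * q a b * c a ^ 2 + ∑ a, ∑ b, v a * v b * q a b * c b ^ 2) / 2 := by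
      simp only [← sum_add_distrib, sum_div]
      refine sum_congr rfl fun a _ => sum_congr rfl fun b _ => by ring
    rw [this, ← h2, ← h1]; ring
  rw [h3, abs_le]
  constructor
  · rw [neg_le, bil, ← sum_neg_distrib]
    refine sum_le_sum fun a _ => ?_
    rw [← sum_neg_distrib]
    refine sum_le_sum fun b _ => ?_
    have := mul_nonneg (mul_nonneg (hv a) (hv b)) (hq a b)
    nlinarith [mul_nonneg this (sq_nonneg (c a + c b))]
  · refine sum_le_sum fun a _ => sum_le_sum fun b _ => ?_
    have := mul_nonneg (mul_nonneg (hv a) (hv b)) (hq a b)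
    nlinarith [mul_nonneg this (sq_nonneg (c a - c b))]

/-- The Laplacian energy identity. -/
theorem energy_eq {q : Y → Y → ℝ} (hs : ∀ a b, q a b = q b a) (v c : Y → ℝ) :
    ∑ a, ∑ b, v a * v b * q a b * (c a - c b) ^ 2 =
      2 * (∑ e, v e * c e ^ 2 * ∑ a, v a * q a e) -
        2 * bil q (fun a => c a * v a) (fun a => c a * v a) := by
  have h1 : ∑ e, v e * c e ^ 2 * ∑ a, v a * q a e = ∑ a, ∑ b, v a * v b * q a b * c b ^ 2 := by
    rw [sum_comm]
    refine sum_congr rfl fun e _ => ?_
    rw [mul_sum]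
    exact sum_congr rfl fun a _ => by ring
  have h2 : ∑ a, ∑ b, v a * v b * q a b * c b ^ 2 = ∑ a, ∑ b, v a * v b * q a b * c a ^ 2 := by
    rw [sum_comm]
    refine sum_congr rfl fun a _ => sum_congr rfl fun b _ => ?_
    rw [hs b a]; ring
  have h3 : ∑ a, ∑ b, v a * v b * q a b * (c a - c b) ^ 2 =
      ∑ a, ∑ b, v a * v b * q a b * c a ^ 2 + ∑ a, ∑ b, v a * v b * q a b * c b ^ 2 -
        2 * bil q (fun a => c a * v a) (fun a => c a * v a) := by
    simp only [bil, mul_sum, ← sum_add_distrib, ← sum_sub_distrib]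
    refine sum_congr rfl fun a _ => sum_congr rfl fun b _ => by ring
  rw [h3, ← h2, ← h1]; ring

theorem row_zero {q : Y → Y → ℝ} (hq : ∀ a b, 0 ≤ q a b) {v : Y → ℝ} (hv : ∀ a, 0 < v a) {e : Y}
    (h : ∑ a, v a * q a e = 0) (a : Y) : q a e = 0 := by
  rw [sum_eq_zero_iff_of_nonneg fun a _ => mul_nonneg (hv a).le (hq a e)] at h
  exact (mul_eq_zero.1 (h a (mem_univ a))).resolve_left (hv a).ne'

/-- Solving the Laplace equation of a connected kernel. -/
theorem solve {q : Y → Y → ℝ} (hs : ∀ a b, q a b = q b a) (hq : ∀ a b, 0 ≤ q a b) (hc : Conn q)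
    {v : Y → ℝ} (hv : ∀ a, 0 < v a) (r : Y → ℝ) (hr : ∑ e, v e * r e = 0)
    (hr0 : ∀ e, ∑ a, v a * q a e = 0 → r e = 0) :
    ∃ c : Y → ℝ, (∀ e, c e * ∑ a, v a * q a e - ∑ a, c a * v a * q a e = r e) ∧
      ∑ e, c e * v e * ∑ a, v a * q a e = 0 := by
  classical
  set d : Y → ℝ := fun e => ∑ a, v a * q a e with hd
  have hd0 : ∀ e, 0 ≤ d e := fun e => sum_nonneg fun a _ => mul_nonneg (hv a).le (hq a e)
  let Φ : (Y → ℝ) →ₗ[ℝ] (Y → ℝ) :=
    { toFun := fun c e => if d e = 0 then c e else
        c e * d e - ∑ a, c a * v a * q a e + d e * ∑ a, c a * v a * d a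
      map_add' := by
        intro c c'
        funext e
        simp only [Pi.add_apply]
        split_ifs
        · rfl
        · simp only [add_mul, sum_add_distrib]; ring
      map_smul' := by
        intro s c
        funext e
        simp only [Pi.smul_apply, smul_eq_mul, RingHom.id_apply]
        split_ifs
        · rfl
        · simp only [mul_assoc s, ← mul_sum]; ring }
  have hsum : ∀ c : Y → ℝ, ∑ e, v e * ∑ a, c a * v a * q a e = ∑ a, c a * v a * d a := by
    intro c
    simp only [mul_sum, hd]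
    rw [sum_comm]
    refine sum_congr rfl fun a _ => sum_congr rfl fun b _ => ?_
    rw [hs a b]; ring
  have hinj : Function.Injective Φ := by
    rw [← LinearMap.ker_eq_bot, LinearMap.ker_eq_bot']
    intro c hΦ
    have h1 : ∀ e, d e = 0 → c e = 0 := fun e he => by
      have := congrFun hΦ e
      simpa [Φ, he] using this
    have h2 : ∀ e, c e * d e - ∑ a, c a * v a * q a e + d e * ∑ a, c a * v a * d a = 0 := by
      intro e
      by_cases he : d e = 0
      · have : ∑ a, c a * v a * q a e = 0 :=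
          sum_eq_zero fun a _ => by rw [row_zero hq hv he a, mul_zero]
        rw [this, he]; ring
      · have := congrFun hΦ e
        simpa [Φ, he] using this
    set S := ∑ a, c a * v a * d a with hS
    have h3 : ∑ e, v e * c e ^ 2 * d e - bil q (fun a => c a * v a) (fun a => c a * v a)
        + S ^ 2 = 0 := by
      have : ∑ e, c e * v e * (c e * d e - ∑ a, c a * v a * q a e + d e * S) = 0 :=
        sum_eq_zero fun e _ => by rw [h2 e, mul_zero]
      rw [← this, bil_eq_right, sq S]
      conv_lhs => rw [hS, sum_mul]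
      simp only [← sum_sub_distrib, ← sum_add_distrib]
      exact sum_congr rfl fun e _ => by ring
    have h4 := energy_eq hs v c
    have hterm : ∀ a b, 0 ≤ v a * v b * q a b * (c a - c b) ^ 2 := fun a b =>
      mul_nonneg (mul_nonneg (mul_nonneg (hv a).le (hv b).le) (hq a b)) (sq_nonneg _)
    have h5 : 0 ≤ ∑ a, ∑ b, v a * v b * q a b * (c a - c b) ^ 2 :=
      sum_nonneg fun a _ => sum_nonneg fun b _ => hterm a b
    have hS0 : S = 0 := by
      have : S ^ 2 ≤ 0 := by simp only [hd] at h3; linarith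
      exact pow_eq_zero_iff (two_ne_zero) |>.1 (le_antisymm this (sq_nonneg _))
    have h6 : ∑ a, ∑ b, v a * v b * q a b * (c a - c b) ^ 2 = 0 := by
      simp only [hd, hS0] at h3; linarith
    have h7 : ∀ a b, q a b ≠ 0 → c a = c b := by
      intro a b hab
      rw [sum_eq_zero_iff_of_nonneg fun a _ => sum_nonneg fun b _ => hterm a b] at h6
      have := h6 a (mem_univ a)
      rw [sum_eq_zero_iff_of_nonneg fun b _ => hterm a b] at this
      have := this b (mem_univ b)
      have h' : (c a - c b) ^ 2 = 0 :=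
        (mul_eq_zero.1 this).resolve_left (mul_ne_zero (mul_ne_zero (hv a).ne' (hv b).ne') hab)
      have := pow_eq_zero_iff (two_ne_zero) |>.1 h'
      linarith
    have hrow : ∀ e, d e ≠ 0 → ∃ b, q e b ≠ 0 := by
      intro e he
      by_contra hcon
      push Not at hcon
      exact he (sum_eq_zero fun a _ => by rw [hs a e, hcon a, mul_zero])
    funext e
    by_cases he : d e = 0
    · exact h1 e he
    · have h8 : ∀ a, c a * v a * d a = c e * (v a * d a) := by
        intro a
        by_cases ha : d a = 0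
        · rw [ha]; ring
        · have : c a = c e := by
            rcases hc a e (hrow a ha) (hrow e he) with h | ⟨z, h, h'⟩
            · exact h7 _ _ h
            · exact (h7 _ _ h).trans (h7 _ _ h')
          rw [this]; ring
      have h9 : c e * ∑ a, v a * d a = 0 := by
        rw [mul_sum, ← hS0, hS]; exact sum_congr rfl fun a _ => (h8 a).symm
      have hpos : 0 < ∑ a, v a * d a :=
        sum_pos' (fun a _ => mul_nonneg (hv a).le (hd0 a))
          ⟨e, mem_univ e, mul_pos (hv e) (lt_of_le_of_ne (hd0 e) (Ne.symm he))⟩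
      exact (mul_eq_zero.1 h9).resolve_right hpos.ne'
  obtain ⟨c, hcr⟩ := (LinearMap.injective_iff_surjective.1 hinj) r
  have h2 : ∀ e, c e * d e - ∑ a, c a * v a * q a e + d e * ∑ a, c a * v a * d a = r e := by
    intro e
    by_cases he : d e = 0
    · have : ∑ a, c a * v a * q a e = 0 :=
        sum_eq_zero fun a _ => by rw [row_zero hq hv he a, mul_zero]
      rw [this, he, hr0 e he]; ring
    · have := congrFun hcr e
      simpa [Φ, he] using this
  set S := ∑ a, c a * v a * d a with hS
  have h3 : (∑ e, v e * d e) * S = 0 := by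
    have : ∑ e, v e * (c e * d e - ∑ a, c a * v a * q a e + d e * S) = 0 := by
      rw [← hr]; exact sum_congr rfl fun e _ => by rw [h2 e]
    have h' : ∑ e, v e * (c e * d e - ∑ a, c a * v a * q a e + d e * S) =
        ∑ e, c e * v e * d e - ∑ e, v e * ∑ a, c a * v a * q a e + (∑ e, v e * d e) * S := by
      rw [sum_mul, ← sum_sub_distrib, ← sum_add_distrib]
      exact sum_congr rfl fun e _ => by ring
    rw [h', hsum c] at this
    linarith
  have hS0 : S = 0 := by
    rcases mul_eq_zero.1 h3 with h | h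
    · rw [sum_eq_zero_iff_of_nonneg fun a _ => mul_nonneg (hv a).le (hd0 a)] at h
      refine sum_eq_zero fun a _ => ?_
      rw [mul_assoc, h a (mem_univ a), mul_zero]
    · exact h
  refine ⟨c, fun e => ?_, hS0⟩
  have := h2 e
  rw [hS0] at this
  simpa using this

theorem hyp_of_functional {q : Y → Y → ℝ} (hs : ∀ a b, q a b = q b a) (hq : ∀ a b, 0 ≤ q a b)
    (l : Y → ℝ) (h : ∀ x : Y → ℝ, ∑ a, x a * l a = 0 → bil q x x ≤ 0) : Hyp q := by
  intro v hv x hx
  have hvv : 0 ≤ bil q v v := bil_nonneg hq (fun a => (hv a).le) (fun a => (hv a).le)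
  rcases hvv.eq_or_lt with h0 | hpos
  · have hz : ∀ a b, q a b = 0 := by
      intro a b
      have h1 := h0.symm
      rw [bil_eq_right, sum_eq_zero_iff_of_nonneg fun b _ => mul_nonneg (hv b).le
        (sum_nonneg fun a _ => mul_nonneg (hv a).le (hq a b))] at h1
      exact row_zero hq hv ((mul_eq_zero.1 (h1 b (mem_univ b))).resolve_left (hv b).ne') a
    simp [bil, hz]
  · have hl : ∑ a, v a * l a ≠ 0 := fun h0 => absurd (h v h0) (not_le.2 hpos)
    set t := (∑ a, x a * l a) / ∑ a, v a * l a with ht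
    have := h (fun a => 1 * x a + (-t) * v a) (by
      have : ∑ a, (1 * x a + -t * v a) * l a = ∑ a, x a * l a - t * ∑ a, v a * l a := by
        rw [mul_sum, ← sum_sub_distrib]; exact sum_congr rfl fun a _ => by ring
      rw [this, ht, div_mul_cancel₀ _ hl, sub_self])
    rw [bil_sq hs, hx] at this
    nlinarith [mul_nonneg (sq_nonneg t) hvv]

/-- The trickle-down step. -/
theorem hyp_step {w : Y → Y → Y → ℝ} (hs1 : ∀ e a b, w e a b = w e b a)
    (hs2 : ∀ e a b, w e a b = w a e b) (hw : ∀ e a b, 0 ≤ w e a b) (hh : ∀ e, Hyp (w e))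
    {v : Y → ℝ} (hv : ∀ a, 0 < v a) (hc : Conn fun a b => ∑ e, v e * w e a b) :
    Hyp fun a b => ∑ e, v e * w e a b := by
  set q : Y → Y → ℝ := fun a b => ∑ e, v e * w e a b with hqdef
  have hs : ∀ a b, q a b = q b a := fun a b => sum_congr rfl fun e _ => by rw [hs1]
  have hq : ∀ a b, 0 ≤ q a b := fun a b => sum_nonneg fun e _ => mul_nonneg (hv e).le (hw e a b)
  set d : Y → ℝ := fun e => ∑ a, v a * q a e with hd
  have hlink : ∀ (x : Y → ℝ) e, bil (w e) x v = ∑ a, x a * q a e := by
    intro x e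
    unfold bil
    refine sum_congr rfl fun a _ => ?_
    simp only [hqdef, mul_sum]
    refine sum_congr rfl fun b _ => ?_
    rw [hs1 e a b, hs2 e b a, hs1 b e a]; ring
  have hsplit : ∀ x : Y → ℝ, bil q x x = ∑ e, v e * bil (w e) x x := by
    intro x
    simp only [bil, hqdef, mul_sum]
    rw [sum_comm]
    conv_lhs => enter [2, a]; rw [sum_comm]
    rw [sum_comm]
    refine sum_congr rfl fun e _ => ?_
    rw [sum_comm]
    exact sum_congr rfl fun a _ => sum_congr rfl fun b _ => by ring
  have boch : ∀ x c : Y → ℝ, (∀ e, ∑ a, x a * q a e = c e * d e) →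
      bil q x x ≤ ∑ e, v e * c e ^ 2 * d e := by
    intro x c hx
    rw [hsplit]
    refine sum_le_sum fun e _ => ?_
    have h1 : bil (w e) x v = c e * d e := by rw [hlink, hx]
    have h2 : bil (w e) v v = d e := hlink v e
    have := hh e v hv (fun a => 1 * x a + (-c e) * v a) (by rw [bil_lin_left, h1, h2]; ring)
    rw [bil_sq (hs1 e), h1, h2] at this
    rw [mul_assoc]
    exact mul_le_mul_of_nonneg_left (by nlinarith) (hv e).le
  refine hyp_of_functional hs hq d fun x hx => ?_
  set c : Y → ℝ := fun a => x a / v a with hcdef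
  have hxc : ∀ a, x a = c a * v a := fun a => by simp only [hcdef]; rw [div_mul_cancel₀ _ (hv a).ne']
  obtain ⟨u, hu, -⟩ := solve hs hq hc hv (fun e => c e * d e)
    (by rw [← hx]; exact sum_congr rfl fun e _ => by rw [hxc e]; ring)
    (fun e he => by simp only [hd, he, mul_zero])
  set u1 : Y → ℝ := fun a => u a - c a with hu1
  have hqu : ∀ e, ∑ a, u a * v a * q a e = u1 e * d e := fun e => by
    have := hu e
    simp only [hu1, hd] at this ⊢
    linarith
  have e1 : x = fun a => 1 * (u a * v a) + (-1) * (u1 a * v a) := by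
    funext a; rw [hxc a]; simp only [hu1]; ring
  have b1 := boch (fun a => u a * v a) u1 hqu
  have b2 : bil q (fun a => u a * v a) (fun a => u1 a * v a) = ∑ e, v e * u1 e ^ 2 * d e := by
    rw [bil_eq_right]
    exact sum_congr rfl fun e _ => by rw [hqu e]; ring
  have b3 := (abs_le.1 (bil_le_diag hs hq (fun a => (hv a).le) u1)).2
  rw [e1, bil_sq hs, b2]
  simp only [hd] at b1 b3 ⊢
  linarith

theorem psd_of_rel (r : Y → Y → Prop) [DecidableRel r] (hs : ∀ a b, r a b → r b a)
    (ht : ∀ a b c, r a b → r b c → r a c) (x : Y → ℝ) :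
    0 ≤ ∑ a, ∑ b, x a * x b * (if r a b then 1 else 0) := by
  classical
  let g : Y → Finset Y := fun a => univ.filter (r a)
  let x' : Y → ℝ := fun a => if r a a then x a else 0
  have h1 : ∀ a b, x a * x b * (if r a b then (1 : ℝ) else 0) =
      ∑ c : Finset Y, (if g a = c then x' a else 0) * (if g b = c then x' b else 0) := by
    intro a b
    rw [sum_eq_single (g a) (fun c _ hc => by simp [Ne.symm hc]) (by simp)]
    by_cases hab : r a b
    · have haa : r a a := ht a b a hab (hs a b hab)
      have hbb : r b b := ht b a b (hs a b hab) hab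
      have : g b = g a := by
        ext c
        simp only [g, mem_filter, mem_univ, true_and]
        exact ⟨fun h => ht a b c hab h, fun h => ht b a c (hs a b hab) h⟩
      simp [hab, this, x', haa, hbb]
    · by_cases hg : g b = g a
      · by_cases hbb : r b b
        · exfalso
          have : b ∈ g a := by rw [← hg]; simp [g, hbb]
          exact hab (by simpa [g] using this)
        · simp [hab, x', hbb]
      · simp [hab, hg]
  simp only [h1]
  rw [sum_comm]
  conv_rhs => enter [2, b]; rw [sum_comm]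
  rw [sum_comm]
  refine sum_nonneg fun c _ => ?_
  simp only [← mul_sum, ← sum_mul]
  exact mul_self_nonneg _

/-- The base case: a zero-one kernel whose nonzero rows form a complete multipartite pattern. -/
theorem hyp_base {q : Y → Y → ℝ} (hs : ∀ a b, q a b = q b a) (h01 : ∀ a b, q a b = 0 ∨ q a b = 1)
    (haug : ∀ a b c, q a c ≠ 0 → (∃ z, q b z ≠ 0) → q a b ≠ 0 ∨ q b c ≠ 0) : Hyp q := by
  classical
  have hq : ∀ a b, 0 ≤ q a b := fun a b => by rcases h01 a b with h | h <;> simp [h]
  let nl : Y → Prop := fun a => ∃ z, q a z ≠ 0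
  refine hyp_of_functional hs hq (fun a => if nl a then 1 else 0) fun x hx => ?_
  have h1 := psd_of_rel (fun a b => nl a ∧ nl b ∧ q a b = 0)
    (fun a b h => ⟨h.2.1, h.1, by rw [hs]; exact h.2.2⟩)
    (fun a b c h h' => ⟨h.1, h'.2.1, by
      by_contra hac
      rcases haug a b c hac h.2.1 with h'' | h''
      · exact h'' h.2.2
      · exact h'' h'.2.2⟩) x
  have h2 : bil q x x + ∑ a, ∑ b, x a * x b * (if nl a ∧ nl b ∧ q a b = 0 then 1 else 0) =
      (∑ a, x a * (if nl a then 1 else 0)) * ∑ a, x a * (if nl a then 1 else 0) := by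
    rw [sum_mul_sum, bil, ← sum_add_distrib]
    refine sum_congr rfl fun a _ => ?_
    rw [← sum_add_distrib]
    refine sum_congr rfl fun b _ => ?_
    rcases h01 a b with h | h
    · by_cases ha : nl a <;> by_cases hb : nl b <;> simp [h, ha, hb]
    · have ha : nl a := ⟨b, by rw [h]; exact one_ne_zero⟩
      have hb : nl b := ⟨a, by rw [hs, h]; exact one_ne_zero⟩
      simp [h, ha, hb]
  rw [hx] at h2
  linarith

/-- The three point inequality. -/
theorem Hyp.three {q : Y → Y → ℝ} (hh : Hyp q) (hs : ∀ a b, q a b = q b a)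
    (hq : ∀ a b, 0 ≤ q a b) {a b c : Y → ℝ} (ha : ∀ y, 0 < a y) (hb : ∀ y, 0 ≤ b y)
    (hc : ∀ y, 0 ≤ c y) : bil q a a * bil q b c ≤ 2 * bil q a b * bil q a c := by
  have ha' : ∀ y, 0 ≤ a y := fun y => (ha y).le
  have hab := bil_nonneg hq ha' hb
  have hac := bil_nonneg hq ha' hc
  have haa := bil_nonneg hq ha' ha'
  have hbb := bil_nonneg hq hb hb
  have hcc := bil_nonneg hq hc hc
  have zero : ∀ {b c : Y → ℝ}, (∀ y, 0 ≤ b y) → bil q a b = 0 → bil q c b = 0 := by
    intro b c hb h
    rw [bil_eq_right, sum_eq_zero_iff_of_nonneg fun y _ => mul_nonneg (hb y)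
      (sum_nonneg fun z _ => mul_nonneg (ha' z) (hq z y))] at h
    rw [bil_eq_right]
    refine sum_eq_zero fun y _ => ?_
    rcases mul_eq_zero.1 (h y (mem_univ y)) with h' | h'
    · rw [h', zero_mul]
    · rw [sum_eq_zero fun z _ => by rw [row_zero hq ha h' z, mul_zero], mul_zero]
  rcases hab.eq_or_lt with h0 | hab
  · rw [bil_comm hs b c, zero hb h0.symm, ← h0]; simp
  rcases hac.eq_or_lt with h0 | hac
  · rw [zero hc h0.symm, ← h0]; simp
  rcases haa.eq_or_lt with h0 | haa
  · rw [← h0, zero_mul]; positivity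
  set z : Y → ℝ := fun y => bil q a c * b y + bil q a b * c y with hz
  have hza : bil q z a = 2 * bil q a b * bil q a c := by
    rw [hz, bil_lin_left, bil_comm hs b a, bil_comm hs c a]; ring
  have hzz : bil q z z = bil q a c ^ 2 * bil q b b + 2 * bil q a c * bil q a b * bil q b c +
      bil q a b ^ 2 * bil q c c := bil_sq hs _ _ _ _
  set t := 2 * bil q a b * bil q a c / bil q a a with ht
  have htp : t * bil q a a = 2 * bil q a b * bil q a c := div_mul_cancel₀ _ haa.ne'
  have := hh a ha (fun y => 1 * z y + (-t) * a y) (by rw [bil_lin_left, hza, ← htp]; ring)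
  rw [bil_sq hs, hza, hzz] at this
  have h1 : 2 * bil q a c * bil q a b * bil q b c ≤ t * (2 * bil q a b * bil q a c) := by
    have e : (-t) ^ 2 * bil q a a = t * (2 * bil q a b * bil q a c) := by rw [← htp]; ring
    rw [e] at this
    linarith [mul_nonneg (sq_nonneg (bil q a c)) hbb, mul_nonneg (sq_nonneg (bil q a b)) hcc]
  have h2 : bil q b c ≤ t := by
    have hp : 0 < 2 * bil q a b * bil q a c := by positivity
    nlinarith
  nlinarith

end Vale.Agent.P317
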